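import Vale.Agent.P092.H213.Rp.Top
import Vale.Agent.P092.H736.ExpLoc

/-!
P092, project ND (helper213), row (ND-R) (helper541): a closed non-discrete subgroup of a real
group of automorphisms contains a curve with nonzero derivative.
-/

set_option linter.all false

open Filter Topology Module

namespace Vale.Agent.P092.H541.Nd

open Vale.Agent.P092.H213.Rp

section gen

variable {k : Type} [NontriviallyNormedField k] {V : Type} [NormedAddCommGroup V] [NormedSpace k V]

/-- The derivative at `1` of a curve of automorphisms is a derivation. -/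
theorem derB_of_curve (c : V →L[k] V →L[k] V) {P : k → (V →L[k] V)} {X : V →L[k] V}
    (hP : HasDerivAt P X 0) (h0 : P 0 = 1) (ha : ∀ᶠ t in 𝓝 (0 : k), AutB c (P t)) :
    X ∈ DerB c := by
  intro x y
  have h1 : ∀ v, HasDerivAt (fun t => P t v) (X v) 0 := fun v => by
    have := hP.clm_apply (hasDerivAt_const (0 : k) v)
    simpa using this
  have h2 : HasDerivAt (fun t => c (P t x) (P t y)) (c (X x) y + c x (X y)) 0 := by
    have e1 : HasDerivAt (fun t => c (P t x)) (c (X x)) 0 :=
      c.hasFDerivAt.comp_hasDerivAt (0 : k) (h1 x)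
    have e2 := e1.clm_apply (h1 y)
    rw [h0] at e2
    simpa using e2
  have h3 : HasDerivAt (fun t => P t (c x y)) (c (X x) y + c x (X y)) 0 := by
    refine h2.congr_of_eventuallyEq ?_
    filter_upwards [ha] with t ht
    exact ht x y
  exact (h1 (c x y)).unique h3

end gen

section gen2

variable {k : Type} [NontriviallyNormedField k] [CompleteSpace k] {L : Type} [LieRing L]
  [LieAlgebra k L] [Module.Finite k L] {n : ℕ} {G : Type} [Group G]

/-- A curve in `H` with nonzero derivative, from a curve of automorphisms in coordinates. -/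
theorem crv_of_curve [CharZero k] (hs : LieAlgebra.IsSimple k L) (b : Basis (Fin n) k L)
    (ρ : G →* Module.End k L) (lie : ∀ g (x y : L), ρ g ⁅x, y⁆ = ⁅ρ g x, ρ g y⁆) {H : Subgroup G}
    {γ : k → G} (hγ : ∀ t, γ t ∈ H) (h0 : γ 0 = 1) {X : (Fin n → k) →L[k] (Fin n → k)}
    (hX : X ≠ 0) (hd : HasStrictDerivAt (fun t => clm b (ρ (γ t))) X 0) :
    ∃ x : L, x ≠ 0 ∧ Crv b ρ H x := by
  haveI := hs
  have h1 : X ∈ DerB (brk b) := derB_of_curve (brk b) hd.hasDerivAt
    (by rw [h0, map_one, map_one]) (Eventually.of_forall fun t => autB_clm b (lie _))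
  obtain ⟨x, rfl⟩ := exists_ad b h1
  refine ⟨x, ?_, γ, hγ, h0, fun i j => ?_⟩
  · rintro rfl
    apply hX
    rw [map_zero, map_zero]
  · let Ψ : ((Fin n → k) →L[k] (Fin n → k)) →ₗ[k] k :=
      { toFun := fun A => LinearMap.toMatrix b b ((clm b).symm A) i j
        map_add' := fun A B => by rw [map_add, map_add]; rfl
        map_smul' := fun a A => by rw [map_smul, map_smul]; rfl }
    have h2 := (LinearMap.toContinuousLinearMap Ψ).hasStrictFDerivAt.comp_hasStrictDerivAt 0 hd
    have h3 : ∀ T : Module.End k L, Ψ (clm b T) = LinearMap.toMatrix b b T i j := fun T => by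
      show LinearMap.toMatrix b b ((clm b).symm (clm b T)) i j = _
      rw [AlgEquiv.symm_apply_apply]
    have h4 : (⇑(LinearMap.toContinuousLinearMap Ψ) ∘ fun t => clm b (ρ (γ t))) =
        fun t => LinearMap.toMatrix b b (ρ (γ t)) i j := by
      funext t
      exact h3 _
    rw [h4] at h2
    have h5 : LinearMap.toContinuousLinearMap Ψ (clm b (LieAlgebra.ad k L x)) =
        LinearMap.toMatrix b b (LieAlgebra.ad k L x) i j := h3 _
    rw [h5] at h2
    exact h2

end gen2

section real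

variable {L : Type} [LieRing L] [LieAlgebra ℝ L] [Module.Finite ℝ L] {n : ℕ} {G : Type} [Group G]
  [TopologicalSpace G]

/-- **(ND-R)** -/
theorem exists_crv_real (b : Basis (Fin n) ℝ L) (ρ : G →* Module.End ℝ L)
    (he : IsClosedEmbedding fun g => LinearMap.toMatrix b b (ρ g)) (hs : LieAlgebra.IsSimple ℝ L)
    (lie : ∀ g (x y : L), ρ g ⁅x, y⁆ = ⁅ρ g x, ρ g y⁆) (H : Subgroup G)
    (hc : IsClosed (H : Set G)) (hd : ¬ DiscreteTopology H) : ∃ x : L, x ≠ 0 ∧ Crv b ρ H x := by
  classical
  let Ψ : ((Fin n → ℝ) →L[ℝ] (Fin n → ℝ)) →ₗ[ℝ] Matrix (Fin n) (Fin n) ℝ :=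
    { toFun := fun A => LinearMap.toMatrix b b ((clm b).symm A)
      map_add' := fun A B => by rw [map_add, map_add]
      map_smul' := fun a A => by rw [map_smul, map_smul]; rfl }
  have hΨ : Continuous Ψ := LinearMap.continuous_of_finiteDimensional Ψ
  have hΨ1 : ∀ T : Module.End ℝ L, Ψ (clm b T) = LinearMap.toMatrix b b T := fun T => by
    show LinearMap.toMatrix b b ((clm b).symm (clm b T)) = _
    rw [AlgEquiv.symm_apply_apply]
  have hΨ2 : ∀ A T, Ψ A = LinearMap.toMatrix b b T → A = clm b T := fun A T h => by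
    have h1 : LinearMap.toMatrix b b ((clm b).symm A) = LinearMap.toMatrix b b T := h
    have h2 := (LinearMap.toMatrix b b).injective h1
    rw [← h2, AlgEquiv.apply_symm_apply]
  set HH : Set ((Fin n → ℝ) →L[ℝ] (Fin n → ℝ)) :=
    Ψ ⁻¹' ((fun g => LinearMap.toMatrix b b (ρ g)) '' (H : Set G)) with hHH
  have hHc : IsClosed HH := (he.isClosedMap _ hc).preimage hΨ
  have hmem : ∀ A, A ∈ HH ↔ ∃ h ∈ H, A = clm b (ρ h) := by
    intro A
    constructor
    · rintro ⟨h, hh, e⟩
      exact ⟨h, hh, hΨ2 A (ρ h) e.symm⟩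
    · rintro ⟨h, hh, rfl⟩
      exact ⟨h, hh, (hΨ1 _).symm⟩
  have hone : (1 : (Fin n → ℝ) →L[ℝ] (Fin n → ℝ)) ∈ HH :=
    (hmem _).2 ⟨1, H.one_mem, by rw [map_one, map_one]⟩
  have hmul : ∀ a ∈ HH, ∀ c ∈ HH, a * c ∈ HH := by
    intro a ha c hc
    obtain ⟨h, hh, rfl⟩ := (hmem _).1 ha
    obtain ⟨h', hh', rfl⟩ := (hmem _).1 hc
    exact (hmem _).2 ⟨h * h', H.mul_mem hh hh', by rw [map_mul, map_mul]⟩
  have hneg : ∀ A, NormedSpace.exp A ∈ HH → NormedSpace.exp (-A) ∈ HH := by
    intro A hA
    obtain ⟨h, hh, e⟩ := (hmem _).1 hA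
    refine (hmem _).2 ⟨h⁻¹, H.inv_mem hh, ?_⟩
    have h1 : clm b (ρ h) * clm b (ρ h⁻¹) = 1 := by
      rw [← map_mul, ← map_mul, mul_inv_cancel, map_one, map_one]
    have h2 := H736.ExpLoc.exp_neg_mul A
    calc NormedSpace.exp (-A) = NormedSpace.exp (-A) * (clm b (ρ h) * clm b (ρ h⁻¹)) := by
          rw [h1, mul_one]
      _ = (NormedSpace.exp (-A) * NormedSpace.exp A) * clm b (ρ h⁻¹) := by
          rw [e, mul_assoc]
      _ = clm b (ρ h⁻¹) := by rw [h2, one_mul]
  -- a direction
  have hdir : ∃ X : (Fin n → ℝ) →L[ℝ] (Fin n → ℝ), X ≠ 0 ∧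
      ∀ t : ℝ, NormedSpace.exp (t • X) ∈ HH := by
    by_contra hcon
    push Not at hcon
    obtain ⟨V, hV, hV'⟩ := H736.ExpLoc.log_nhds hHc hone hmul hneg ⊥ (by
      intro X
      rw [Submodule.mem_bot]
      constructor
      · rintro rfl t
        rw [smul_zero, NormedSpace.exp_zero]
        exact hone
      · intro h
        by_contra hX
        obtain ⟨t, ht⟩ := hcon X hX
        exact ht (h t)) (U := Set.univ) univ_mem
    apply hd
    have hcont : Continuous fun g : G => clm b (ρ g) := by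
      have h1 : (fun g : G => clm b (ρ g)) =
          fun g => m2c (LinearMap.toMatrix b b (ρ g)) := by
        funext g
        rw [m2c_toMatrix]
      rw [h1]
      exact continuous_m2c.comp he.continuous
    have hinj : Function.Injective fun g => LinearMap.toMatrix b b (ρ g) := he.injective
    have hN : {g : G | clm b (ρ g) ∈ V} ∈ 𝓝 (1 : G) := by
      refine hcont.continuousAt.preimage_mem_nhds ?_
      rwa [map_one, map_one]
    have hone' : ∀ g ∈ H, clm b (ρ g) ∈ V → g = 1 := by
      intro g hg hgV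
      obtain ⟨X, -, hX, e⟩ := hV' _ ((hmem _).2 ⟨g, hg, rfl⟩) hgV
      rw [Submodule.mem_bot] at hX
      rw [hX, NormedSpace.exp_zero] at e
      apply hinj
      have h2 : ρ g = 1 := (clm b).injective (by rw [e, map_one])
      show LinearMap.toMatrix b b (ρ g) = LinearMap.toMatrix b b (ρ 1)
      rw [h2, map_one ρ]
    haveI : IsTopologicalGroup G := topGroup he.isEmbedding
    rw [discreteTopology_iff_isOpen_singleton_one]
    rw [isOpen_iff_mem_nhds]
    rintro h rfl
    rw [nhds_subtype_eq_comap]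
    refine ⟨_, hN, ?_⟩
    intro h hh
    exact Subtype.ext (hone' _ h.2 hh)
  obtain ⟨X, hX, hXt⟩ := hdir
  choose γ hγ hγe using fun t => (hmem _).1 (hXt t)
  refine crv_of_curve hs b ρ lie hγ ?_ hX ?_
  · apply he.injective
    show LinearMap.toMatrix b b (ρ (γ 0)) = LinearMap.toMatrix b b (ρ 1)
    have h1 := hγe 0
    rw [zero_smul, NormedSpace.exp_zero] at h1
    have h2 : ρ (γ 0) = 1 := (clm b).injective (by rw [← h1, map_one])
    rw [h2, map_one ρ]
  · have h1 : (fun t => clm b (ρ (γ t))) = fun t : ℝ => NormedSpace.exp (t • X) := by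
      funext t
      exact (hγe t).symm
    rw [h1]
    exact hasStrictDerivAt_exp_smul_const X (0 : ℝ) |>.congr_deriv (by simp)

end real

end Vale.Agent.P092.H541.Nd
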