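import Vale.Agent.P092.H541.Nd.Real
import Vale.Agent.P092.H144.Nd.Cl

/-!
P092, project ND (helper213), (ND-R) (helper541): real groups between `E(L)` and `Aut(L)` satisfy
`ND`.
-/

set_option linter.all false

open Filter Topology Module

namespace Vale.Agent.P092.H541.Nd

open Vale.Agent.P092.H213.Rp

variable {L : Type} [LieRing L] [LieAlgebra ℝ L] [Module.Finite ℝ L] {n : ℕ} {G : Type} [Group G]
  [TopologicalSpace G]

theorem nd_real {b : Basis (Fin n) ℝ L} {ρ : G →* Module.End ℝ L} (h : H720.Rp.RA b ρ) :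
    H213.Nd.ND G :=
  H144.Nd.nd_of' h fun he H hc hd => exists_crv_real b ρ he h.simple h.lie H hc hd

end Vale.Agent.P092.H541.Nd
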